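import Vale.Agent.P016Z.Pr.TI.Red

/-!
P016: the Type I estimate.
-/

open Finset Filter

namespace Vale.Agent.P016Z.Pr

open Vale.Agent.P005Z

namespace TI

lemma band_ge {l i p : ℕ} (hp : p ∈ band l i) : p.Prime ∧ 2 ^ (2 * l ^ 2) ≤ p := by
  simp only [band, prm, mem_filter, mem_Ico] at hp
  refine ⟨hp.2, le_trans (Nat.pow_le_pow_right (by norm_num) (Nat.mul_le_mul_left 2 ?_)) hp.1.1⟩
  rcases Nat.eq_zero_or_pos l with rfl | h
  · simp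
  · exact Nat.pow_le_pow_right h (by omega)

lemma md_cop {r l d : ℕ} {t : ℕ × (Fin r → ℕ)} (ht : t ∈ MT r l)
    (hd : ∀ p : ℕ, p.Prime → p ∣ d → p < 2 ^ (2 * l ^ 2)) : 0 < md t ∧ Nat.Coprime (md t) d := by
  simp only [MT, mem_product, Fintype.mem_piFinset] at ht
  have h : ∀ i p, p ∈ band l i → Nat.Coprime p d := fun i p hp =>
    (Nat.Prime.coprime_iff_not_dvd (band_ge hp).1).2 fun h =>
      absurd (hd p (band_ge hp).1 h) (not_lt.2 (band_ge hp).2)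
  exact ⟨Nat.mul_pos (band_ge ht.1).1.pos (prod_pos fun c _ => (band_ge (ht.2 c)).1.pos),
    Nat.Coprime.mul_left (h _ _ ht.1) (Nat.Coprime.prod_left fun c _ => h _ _ (ht.2 c))⟩

lemma cop_of {x : ℝ} {p e n : ℕ} (hx : 2 ≤ x) (hp : p.Prime) (hn : 2 ≤ n) (h1 : x ^ n ≤ p)
    (h2 : e ≠ 0) (h3 : (e : ℝ) ≤ x) : Nat.Coprime p e := by
  have h4 := pow_le_pow_right₀ (by linarith : 1 ≤ x) hn
  have h5 : (e : ℝ) < p := by nlinarith
  exact Nat.coprime_of_lt_prime h2 (by exact_mod_cast h5) hp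

lemma ev_big {K c : ℝ} (hK : 0 < K) (hc : 0 < c) :
    ∀ᶠ N : ℕ in atTop, K * Real.log N ^ 2 ≤ (N : ℝ) ^ c := by
  have := (isLittleO_log_rpow_rpow_atTop (2 : ℝ) hc).bound (inv_pos.2 hK)
  filter_upwards [tendsto_natCast_atTop_atTop.eventually this] with N hN
  rw [Real.rpow_two, Real.norm_of_nonneg (sq_nonneg _),
    Real.norm_of_nonneg (Real.rpow_nonneg (Nat.cast_nonneg _) _), ← div_eq_inv_mul,
    le_div_iff₀ hK, mul_comm] at hN
  exact hN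

lemma pth' (h : PTH) : ∃ c : ℝ, 0 < c ∧ ∃ C : ℝ, 0 < C ∧ ∀ (x q a : ℕ) (y Z : ℝ),
    1 ≤ q → Nat.Coprime a q → 1 ≤ y → y ≤ Z → x ≤ Z →
    |thAP x q a - (x : ℝ) / (Nat.totient q : ℝ)| ≤ C * (Z / y ^ c) * (1 + Real.log q) ^ 2 := by
  obtain ⟨c, hc, C, hC, h⟩ := h
  refine ⟨min c 1, lt_min hc one_pos, C, hC, fun x q a y Z hq ha hy hyZ hx => ?_⟩
  have hZ : 0 < Z := by linarith
  rcases Nat.eq_zero_or_pos x with rfl | hx0
  · have : thAP 0 q a = 0 := by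
      refine sum_eq_zero fun p hp => ?_
      have h1 := mem_filter.1 (mem_filter.1 hp).1
      have h2 := h1.2.pos
      have h3 := mem_Ico.1 h1.1
      omega
    simp only [this, Nat.cast_zero, zero_div, sub_zero, abs_zero]
    positivity
  · refine (h x q a hx0 hq ha).trans ?_
    have hx1 : (1 : ℝ) ≤ x := by exact_mod_cast hx0
    gcongr
    calc (x : ℝ) ^ (1 - c) ≤ (x : ℝ) ^ (1 - min c 1) :=
          Real.rpow_le_rpow_of_exponent_le hx1 (by linarith [min_le_left c 1])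
      _ ≤ Z ^ (1 - min c 1) :=
          Real.rpow_le_rpow (by linarith) hx (by linarith [min_le_right c 1])
      _ = Z / Z ^ min c 1 := by rw [Real.rpow_sub hZ, Real.rpow_one]
      _ ≤ Z / y ^ min c 1 := by
          have := lt_min hc one_pos
          gcongr

lemma numB {N x A U' : ℝ} (hN : 0 ≤ N) (hx : 1 ≤ x) (hA : x ^ 11 ≤ A) (hA2 : A ^ 2 ≤ N / x ^ 22)
    (hU : U' ≤ N / x ^ 22) :
    128 * (2 * x) ^ 2 * (4 * N) * (2 * (4 * N) + A ^ 2 * (6 * U' + 4 * N / x ^ 22) + A ^ 4) ≤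
      (A * (200 * x * (N / x ^ 11))) ^ 2 := by
  have hx0 : 0 < x := by linarith
  have h1 : x ^ 22 ≤ A ^ 2 := by
    calc x ^ 22 = (x ^ 11) ^ 2 := by ring
      _ ≤ _ := by gcongr
  have h0 : 0 ≤ N / x ^ 22 := by positivity
  have h2 : N ≤ A ^ 2 * (N / x ^ 22) := by
    calc N = x ^ 22 * (N / x ^ 22) := by field_simp
      _ ≤ _ := by gcongr
  have h3 : A ^ 4 ≤ A ^ 2 * (N / x ^ 22) := by
    calc A ^ 4 = A ^ 2 * A ^ 2 := by ring
      _ ≤ _ := by gcongr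
  have h4 : A ^ 2 * (6 * U' + 4 * N / x ^ 22) ≤ 10 * (A ^ 2 * (N / x ^ 22)) := by
    calc _ ≤ A ^ 2 * (6 * (N / x ^ 22) + 4 * N / x ^ 22) := by gcongr
      _ = _ := by ring
  calc _ ≤ 128 * (2 * x) ^ 2 * (4 * N) * (19 * (A ^ 2 * (N / x ^ 22))) := by
        gcongr
        linarith
    _ = 38912 * (A * (x * (N / x ^ 11))) ^ 2 := by field_simp; ring
    _ ≤ 40000 * (A * (x * (N / x ^ 11))) ^ 2 := by gcongr; norm_num
    _ = _ := by ring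

lemma numer {N x L C A U' w I D : ℝ} (hN : 0 ≤ N) (hx : 1 ≤ x) (hL : 1 ≤ L) (hC : 0 ≤ C)
    (hA : x ^ 11 ≤ A) (hA2 : A ^ 2 ≤ N / x ^ 22) (hU : U' ≤ N / x ^ 22)
    (hAU : A * U' ≤ N / x ^ 11) (hw : A * w ≤ 2 * N) (hI0 : 0 ≤ I) (hI : I ≤ x ^ 3 * L + 1)
    (hD0 : 0 ≤ D) (hD : D ≤ x * x) (hb : 2 * (880 + 144 * C) * L ^ 2 ≤ x) :
    I * (I * D) * (200 * x * (N / x ^ 11)) +
      (2 * x * (3 * (4 * N) / x ^ 3 + 6 * A * U' + 6 * w + 2 + 6 * U') +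
        2 * (x * (72 * C * L ^ 2 * (N / x ^ 11) + U'))) ≤ N / x / 2 := by
  have hx0 : 0 < x := by linarith
  have hL2 : 1 ≤ L ^ 2 := one_le_pow₀ hL
  have hA1 : 1 ≤ A := (one_le_pow₀ hx).trans hA
  have hn : 0 ≤ N / x ^ 3 := by positivity
  have e1 : N / x ^ 11 ≤ N / x ^ 3 := by gcongr; norm_num
  have e2 : N / x ^ 22 ≤ N / x ^ 3 := by gcongr; norm_num
  have e3 : 1 ≤ N / x ^ 3 := ((one_le_pow₀ hA1).trans hA2).trans e2
  have e4 : w ≤ 2 * (N / x ^ 3) := by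
    have : w ≤ 2 * N / A := by rw [le_div_iff₀ (by linarith)]; linarith
    refine this.trans ?_
    rw [mul_div_assoc]
    have : x ^ 3 ≤ A := (pow_le_pow_right₀ hx (by norm_num)).trans hA
    gcongr
  have h1 : I * (I * D) * (200 * x * (N / x ^ 11)) ≤ 800 * L ^ 2 * (x * (N / x ^ 3)) := by
    have e5 : 1 ≤ x ^ 3 * L := one_le_mul_of_one_le_of_one_le (one_le_pow₀ hx) hL
    have e6 : I ≤ 2 * (x ^ 3 * L) := by linarith
    calc _ ≤ 2 * (x ^ 3 * L) * (2 * (x ^ 3 * L) * (x * x)) * (200 * x * (N / x ^ 11)) := by gcongr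
      _ = _ := by field_simp; ring
  have h2 : 2 * x * (3 * (4 * N) / x ^ 3 + 6 * A * U' + 6 * w + 2 + 6 * U') ≤
      76 * (x * (N / x ^ 3)) := by
    have e5 : 3 * (4 * N) / x ^ 3 = 12 * (N / x ^ 3) := by ring
    calc _ ≤ 2 * x * (38 * (N / x ^ 3)) := by
          gcongr
          linarith
      _ = _ := by ring
  have h3 : 2 * (x * (72 * C * L ^ 2 * (N / x ^ 11) + U')) ≤
      (144 * C * L ^ 2 + 2) * (x * (N / x ^ 3)) := by
    have e5 := hU.trans e2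
    calc _ ≤ 2 * (x * (72 * C * L ^ 2 * (N / x ^ 3) + N / x ^ 3)) := by gcongr
      _ = _ := by ring
  have h4 : 2 * (880 + 144 * C) * L ^ 2 * (x * (N / x ^ 3)) ≤ N / x := by
    calc _ ≤ x * (x * (N / x ^ 3)) := by gcongr
      _ = _ := by field_simp
  have h5 : x * (N / x ^ 3) ≤ L ^ 2 * (x * (N / x ^ 3)) :=
    le_mul_of_one_le_left (by positivity) hL2
  have h6 : 0 ≤ x * (N / x ^ 3) := by positivity
  linarith

lemma lab_lt {R : ℝ} (hR : 0 ≤ R) {p N : ℕ} (hp : 0 < p) (h : (p : ℝ) ≤ N) :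
    lab R p < ⌊R * Real.log N⌋₊ + 1 := by
  refine Nat.lt_succ_of_le (Nat.floor_le_floor ?_)
  exact mul_le_mul_of_nonneg_left (Real.log_le_log (by exact_mod_cast hp) h) hR

lemma hm_of {c u v r N d q k : ℕ} {x C U' : ℝ} (hc : 0 < c) (hv : 0 < v) (hu : u.Coprime v)
    (hx : 2 ≤ x) (hC : 0 ≤ C) (hL : 1 ≤ Real.log N) (hd1 : 1 ≤ d) (hd2 : (d : ℝ) ≤ x)
    (hdc : d.Coprime (c * v)) (hvx : (v : ℝ) ≤ x) (hxN : x ≤ N) (hq : q.Prime)
    (hq1 : x ^ 22 ≤ q) (hq2 : (q : ℝ) ≤ U')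
    (hmd : ∀ t ∈ MT r (ell N), 0 < md t ∧ (md t).Coprime d ∧ (md t).Coprime v)
    (hMT : ((MT r (ell N)).card : ℝ) ≤ x) (hk : (q : ℝ) * k ≤ 2 * (4 * N))
    (hP : ∀ y a : ℕ, (y : ℝ) ≤ 8 * N / q → a.Coprime (d * v) →
      |thAP y (d * v) a - (y : ℝ) / (Nat.totient (d * v) : ℝ)| ≤
        C * (8 * N / q / x ^ 11) * (1 + Real.log (d * v : ℕ)) ^ 2) :
    |∑ j ∈ range k, gw c u v d r N (q % (d * (c * v))) j -
      VV r (ell N) / (c * Real.log N * (d.totient * v.totient)) * k| ≤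
      x * (72 * C * Real.log N ^ 2 * (N / x ^ 11) + U') / q := by
  have hq0 : (0 : ℝ) < q := by exact_mod_cast hq.pos
  have hx0 : 0 < x := by linarith
  have hN0 : (0 : ℝ) < N := by linarith
  have k2 : ((d * v : ℕ) : ℝ) ≤ N * N := by
    push_cast
    exact mul_le_mul (hd2.trans hxN) (hvx.trans hxN) (Nat.cast_nonneg _) hN0.le
  have k5 : (1 : ℝ) ≤ (d * v : ℕ) := by exact_mod_cast Nat.mul_pos hd1 hv
  have k6 : 1 + Real.log (d * v : ℕ) ≤ 3 * Real.log N := by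
    have := Real.log_le_log (by linarith) k2
    rw [Real.log_mul hN0.ne' hN0.ne'] at this
    linarith
  have k7 := Real.log_nonneg k5
  have h1 := main_all (k := k) (F := C * (8 * N / q / x ^ 11) * (3 * Real.log N) ^ 2) hc hv hu hd1
    hdc (cop_of hx hq (by norm_num) hq1 (by omega) hd2) (cop_of hx hq (by norm_num) hq1 hv.ne' hvx)
    hmd hL (by positivity) fun y a hy ha => by
      have e1 : (y : ℝ) ≤ k := by exact_mod_cast hy
      refine (hP y a (e1.trans ?_) ha).trans (by gcongr)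
      rw [le_div_iff₀ hq0]
      linarith
  refine h1.trans ?_
  have e2 : 1 ≤ U' / q := by rwa [le_div_iff₀ hq0, one_mul]
  calc _ ≤ x * (C * (8 * N / q / x ^ 11) * (3 * Real.log N) ^ 2 + U' / q) := by gcongr
    _ = _ := by ring

lemma one_w {c u v r N A d w : ℕ} {η x C U' : ℝ} {G : Finset ℕ} (hc : 0 < c) (hv : 0 < v)
    (hu : u.Coprime v) (hx : 2 ≤ x) (hC : 0 ≤ C) (hN : 4 ≤ N) (hL : 1 ≤ Real.log N)
    (hG : G ⊆ prm A (2 * A)) (hA : x ^ 11 ≤ A) (hA2 : (A : ℝ) ^ 2 ≤ N / x ^ 22) (hw : 1 ≤ w)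
    (hAw : A * w ≤ 2 * N) (hd1 : 1 ≤ d) (hd2 : (d : ℝ) ≤ x) (hdc : d.Coprime (c * v))
    (hcv : ((c * v : ℕ) : ℝ) ≤ x)
    (hQ : ∀ q ∈ Q1s η N, q.Prime ∧ x ^ 22 ≤ q ∧ (q : ℝ) ≤ U') (hQc : ((Q1s η N).card : ℝ) ≤ U')
    (hth : th1 η N ≤ 1) (hU : U' ≤ N / x ^ 22) (hAU : A * U' ≤ N / x ^ 11)
    (hmd : ∀ t ∈ MT r (ell N), 0 < md t ∧ (md t).Coprime d ∧ (md t).Coprime v)
    (hMT : ((MT r (ell N)).card : ℝ) ≤ x) (hV : VV r (ell N) ≤ Real.log N)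
    (hP : ∀ q ∈ Q1s η N, ∀ y a : ℕ, (y : ℝ) ≤ 8 * N / q → a.Coprime (d * v) →
      |thAP y (d * v) a - (y : ℝ) / (Nat.totient (d * v) : ℝ)| ≤
        C * (8 * N / q / x ^ 11) * (1 + Real.log (d * v : ℕ)) ^ 2)
    (hb : 2 * (880 + 144 * C) * Real.log N ^ 2 ≤ x) :
    |∑ p ∈ G, ∑ m ∈ (Ico 1 w).filter (fun m => d ∣ m), ff c u v η r N (p * m) -
      (G.card : ℝ) * ((w : ℝ) / (Nat.totient d : ℝ)) * DD c v η r N| ≤ N / x / 2 := by
  have hx1 : 1 ≤ x := by linarith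
  have hx0 : 0 < x := by linarith
  have hN0 : (0 : ℝ) ≤ N := Nat.cast_nonneg N
  have hY : N / x ^ 22 ≤ N := div_le_self hN0 (one_le_pow₀ hx1)
  have hxA : x ≤ A := (le_self_pow₀ hx1 (by norm_num)).trans hA
  have hA2' : (2 : ℝ) ≤ A := hx.trans hxA
  have hAN : 2 * (A : ℝ) ≤ N := by nlinarith only [hA2', hA2, hY]
  have hG' : ∀ p ∈ G, p.Prime ∧ A ≤ p ∧ p < 2 * A := fun p hp => by
    have := hG hp
    simp only [prm, mem_filter, mem_Ico] at this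
    exact ⟨this.2, this.1⟩
  have hvx : (v : ℝ) ≤ x := le_trans (by exact_mod_cast Nat.le_mul_of_pos_left v hc) hcv
  have hAw' : (A : ℝ) * w ≤ 2 * N := by exact_mod_cast hAw
  have hU0 : 0 ≤ U' := le_trans (Nat.cast_nonneg _) hQc
  have hV0 : 0 ≤ VV r (ell N) := sum_nonneg fun _ _ => by positivity
  have hc1 : (1 : ℝ) ≤ c := by exact_mod_cast hc
  have hφd : (1 : ℝ) ≤ d.totient := by exact_mod_cast Nat.totient_pos.2 hd1
  have hφv : (1 : ℝ) ≤ v.totient := by exact_mod_cast Nat.totient_pos.2 hv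
  have hκ : VV r (ell N) / (c * Real.log N * (d.totient * v.totient)) ≤ 2 * x := by
    refine le_trans ((div_le_one (by positivity)).2 (hV.trans ?_)) (by linarith)
    exact (le_mul_of_one_le_left (by linarith) hc1).trans
      (le_mul_of_one_le_right (by positivity) (one_le_mul_of_one_le_of_one_le hφd hφv))
  have h1 := core G (Q1s η N) A w (d * (c * v)) (⌊x ^ 3 * Real.log N⌋₊ + 1) (R := x ^ 3)
    (X := 4 * N) (U := x ^ 22) (U' := U') (Γ := 2 * x) (B := 200 * x * (N / x ^ 11))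
    (κ := VV r (ell N) / (c * Real.log N * (d.totient * v.totient)))
    (E := x * (72 * C * Real.log N ^ 2 * (N / x ^ 11) + U'))
    (by exact_mod_cast (by linarith : (0 : ℝ) < A)) (by positivity) (one_le_pow₀ hx1)
    (hx.trans (le_self_pow₀ hx1 (by norm_num))) hG' hQ hQc hth (by linarith) (by linarith)
    (fun p hp => lab_lt (by positivity) (hG' p hp).1.pos (by
      have : (p : ℝ) ≤ 2 * A := by exact_mod_cast (hG' p hp).2.2.le
      linarith))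
    (fun q hq => lab_lt (by positivity) (hQ q hq).1.pos ((hQ q hq).2.2.trans (hU.trans hY)))
    (gw c u v d r N) (fun b k hk => by
      have e1 : k ≤ 4 * N := by exact_mod_cast hk
      have e2 := gw_bd (c := c) (u := u) (v := v) (d := d) (r := r) (b := b) hL
        (e1.trans (by rw [sq]; exact Nat.mul_le_mul_right N hN))
      exact ⟨e2.1, e2.2.trans (by linarith)⟩)
    (by positivity) (numB hN0 hx1 hA hA2 hU) (by positivity) hκ (by positivity)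
    (fun p q => (p * w + q - 2) / q)
    (fun p hp q hq => K_close (hQ q hq).1.two_le
      ((hG' p hp).1.two_le.trans (Nat.le_mul_of_pos_right _ hw)))
    (fun q hq k hk => hm_of hc hv hu hx hC hL hd1 hd2 hdc hvx (by linarith) (hQ q hq).1
      (hQ q hq).2.1 (hQ q hq).2.2 hmd hMT hk (hP q hq))
  rw [← sum_eq (fun t ht => (hmd t ht).1) hw G fun p hp => ⟨(hG' p hp).1,
    (cop_of hx (hG' p hp).1 (by norm_num) (hA.trans (by exact_mod_cast (hG' p hp).2.1))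
      (by omega) hd2).symm⟩] at h1
  have h2 : (G.card : ℝ) * ((w : ℝ) / (Nat.totient d : ℝ)) * DD c v η r N =
      G.card * (w * (VV r (ell N) / (c * Real.log N * (d.totient * v.totient))) *
        ∑ q ∈ Q1s η N, 1 / (q : ℝ)) := by
    rw [DD, th1]
    ring
  rw [h2]
  refine h1.trans (numer hN0 hx1 hL hC hA hA2 hU hAU hAw' (Nat.cast_nonneg _) ?_
    (Nat.cast_nonneg _) ?_ hb)
  · push_cast
    have := Nat.floor_le (by positivity : 0 ≤ x ^ 3 * Real.log N)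
    linarith
  · rw [Nat.cast_mul]
    exact mul_le_mul hd2 hcv (Nat.cast_nonneg _) hx0.le

lemma Q1s_bd {η : ℝ} (hη : η ≤ 1 / 100) {N : ℕ} (hN : 1 ≤ N) :
    (∀ q ∈ Q1s η N, q.Prime ∧ (N : ℝ) ^ η ≤ q ∧ (q : ℝ) ≤ (N : ℝ) ^ (1 / 10 : ℝ)) ∧
      ((Q1s η N).card : ℝ) ≤ (N : ℝ) ^ (1 / 10 : ℝ) := by
  have hN1 : (1 : ℝ) ≤ N := by exact_mod_cast hN
  have hq : ∀ q ∈ Q1s η N, q.Prime ∧ (N : ℝ) ^ η ≤ q ∧ (q : ℝ) ≤ (N : ℝ) ^ (1 / 10 : ℝ) :=
    fun q hq => by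
      obtain ⟨h1, h2⟩ := mem_filter.1 hq
      obtain ⟨h3, h4⟩ := mem_Ico.1 h1
      exact ⟨h2, Nat.ceil_le.1 h3, (Nat.lt_ceil.1 h4).le.trans
        (Real.rpow_le_rpow_of_exponent_le hN1 (by linarith))⟩
  refine ⟨hq, ?_⟩
  have k1 : Q1s η N ⊆ Icc 1 ⌊(N : ℝ) ^ (1 / 10 : ℝ)⌋₊ := fun q h =>
    mem_Icc.2 ⟨(hq q h).1.pos, Nat.le_floor (hq q h).2.2⟩
  have k2 := card_le_card k1
  rw [Nat.card_Icc, Nat.add_sub_cancel] at k2
  exact le_trans (by exact_mod_cast k2) (Nat.floor_le (by positivity))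

lemma ev_ell (v : ℕ) : ∀ᶠ N : ℕ in atTop, v ≤ ell N := by
  have hL : Tendsto (fun N : ℕ => Real.log N) atTop atTop :=
    Real.tendsto_log_atTop.comp tendsto_natCast_atTop_atTop
  filter_upwards [(Real.tendsto_log_atTop.comp hL).eventually_ge_atTop v] with N h
  exact_mod_cast le_trans h (Nat.le_ceil _)

end TI

open TI

theorem ti (h0 : PTH) (h1 : SZ) (h2 : VVB) : TI := by
  intro c u v η H δ hδ r
  obtain ⟨c', hc', C, hC, hP⟩ := pth' h0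
  obtain ⟨C', -, hS⟩ := h1 c u v η H
  have hη := H.pos
  have hη' := H.le
  obtain ⟨c₀, hc, hc1, hc2, hc3⟩ : ∃ c₀ : ℝ, 0 < c₀ ∧ 11 * c₀ ≤ δ ∧ 22 * c₀ ≤ η ∧ 22 * c₀ ≤ c' := by
    refine ⟨min (δ / 11) (min (η / 22) (c' / 22)), by positivity, ?_, ?_, ?_⟩
    · linarith [min_le_left (δ / 11) (min (η / 22) (c' / 22))]
    · linarith [min_le_right (δ / 11) (min (η / 22) (c' / 22)), min_le_left (η / 22) (c' / 22)]
    · linarith [min_le_right (δ / 11) (min (η / 22) (c' / 22)), min_le_right (η / 22) (c' / 22)]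
  have hcv0 : (0 : ℝ) < (c * v : ℕ) := by exact_mod_cast Nat.mul_pos H.hc H.hv
  refine ⟨c₀, hc, ?_⟩
  filter_upwards [hS r, h2 r c₀ hc, ev_big (K := 2 * (880 + 144 * C)) (by positivity) hc,
    ev_big hcv0 hc, ev_ell v, eventually_ge_atTop 4] with N hSN hV hb hb' hl hN4
  intro A w w' d G hG hA1 hA2 hw1 hww hAw hd1 hd2 hdc hd3
  obtain ⟨-, hV2, -, hV4, -, -⟩ := hV
  have hN0 : (0 : ℝ) < N := by exact_mod_cast (by omega : 0 < N)
  have hN1 : (1 : ℝ) ≤ N := by exact_mod_cast (by omega : 1 ≤ N)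
  have hL : 1 ≤ Real.log N := by
    rw [Real.le_log_iff_exp_le hN0]
    have : (4 : ℝ) ≤ N := by exact_mod_cast hN4
    linarith only [Real.exp_one_lt_d9, this]
  have hL2 : (1 : ℝ) ≤ Real.log N ^ 2 := one_le_pow₀ hL
  have hpow : ∀ (n : ℕ) (s : ℝ), n * c₀ ≤ s → ((N : ℝ) ^ c₀) ^ n ≤ (N : ℝ) ^ s := fun n s h => by
    rw [← Real.rpow_mul_natCast hN0.le]
    exact Real.rpow_le_rpow_of_exponent_le hN1 (by linarith only [h])
  have hdiv : ∀ (n : ℕ) (s : ℝ), s + n * c₀ ≤ 1 → (N : ℝ) ^ s ≤ N / ((N : ℝ) ^ c₀) ^ n :=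
    fun n s h => by
      rw [le_div_iff₀ (by positivity), ← Real.rpow_mul_natCast hN0.le, ← Real.rpow_add hN0]
      exact (Real.rpow_le_rpow_of_exponent_le hN1 (by linarith only [h])).trans
        (Real.rpow_one _).le
  have hfin : (N : ℝ) ^ (1 - c₀) = N / (N : ℝ) ^ c₀ := by rw [Real.rpow_sub hN0, Real.rpow_one]
  have hA11 : ((N : ℝ) ^ c₀) ^ 11 ≤ A :=
    (hpow 11 δ (by push_cast; linarith only [hc1])).trans hA1
  have hAsq : (A : ℝ) ^ 2 ≤ N / ((N : ℝ) ^ c₀) ^ 22 := by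
    refine le_trans ?_ (hdiv 22 (1 - 2 * δ) (by push_cast; linarith only [hc1]))
    calc (A : ℝ) ^ 2 ≤ ((N : ℝ) ^ (1 / 2 - δ)) ^ 2 := by gcongr
      _ = _ := by rw [← Real.rpow_mul_natCast hN0.le]; congr 1; push_cast; ring
  obtain ⟨hQ, hQc⟩ := Q1s_bd hη' (by omega : 1 ≤ N)
  have hQ' : ∀ q ∈ Q1s η N, q.Prime ∧ ((N : ℝ) ^ c₀) ^ 22 ≤ q ∧
      (q : ℝ) ≤ (N : ℝ) ^ (1 / 10 : ℝ) := fun q hq =>
    ⟨(hQ q hq).1, (hpow 22 η (by push_cast; exact hc2)).trans (hQ q hq).2.1, (hQ q hq).2.2⟩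
  have hU : (N : ℝ) ^ (1 / 10 : ℝ) ≤ N / ((N : ℝ) ^ c₀) ^ 22 :=
    hdiv 22 _ (by push_cast; linarith only [hc2, hη'])
  have hAU : A * (N : ℝ) ^ (1 / 10 : ℝ) ≤ N / ((N : ℝ) ^ c₀) ^ 11 := by
    refine le_trans ?_ (hdiv 11 (1 / 2 - δ + 1 / 10) (by push_cast; linarith only [hc1]))
    rw [Real.rpow_add hN0]
    gcongr
  have hmd : ∀ t ∈ MT r (ell N), 0 < md t ∧ (md t).Coprime d ∧ (md t).Coprime v := fun t ht =>
    ⟨(md_cop ht hd3).1, (md_cop ht hd3).2, (md_cop ht fun p _ hp => by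
      have e1 := Nat.le_of_dvd H.hv hp
      have e2 : ell N ≤ ell N ^ 2 := Nat.le_self_pow (by norm_num) _
      have e3 := Nat.lt_two_pow_self (n := 2 * ell N ^ 2)
      omega).2⟩
  have hP' : ∀ q ∈ Q1s η N, ∀ y a : ℕ, (y : ℝ) ≤ 8 * N / q → a.Coprime (d * v) →
      |thAP y (d * v) a - (y : ℝ) / (Nat.totient (d * v) : ℝ)| ≤
        C * (8 * N / q / ((N : ℝ) ^ c₀) ^ 11) * (1 + Real.log (d * v : ℕ)) ^ 2 := by
    intro q hq y a hy ha
    have hq0 : (0 : ℝ) < q := by exact_mod_cast (hQ q hq).1.pos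
    refine (hP y (d * v) a ((N : ℝ) ^ (1 / 2 : ℝ)) _ (Nat.mul_pos hd1 H.hv) ha
      (Real.one_le_rpow hN1 (by norm_num)) ?_ hy).trans ?_
    · rw [le_div_iff₀ hq0]
      have e1 : (N : ℝ) ^ (1 / 2 : ℝ) * (N : ℝ) ^ (1 / 10 : ℝ) ≤ N := by
        rw [← Real.rpow_add hN0]
        exact Real.rpow_le_self_of_one_le hN1 (by norm_num)
      have e2 := mul_le_mul_of_nonneg_left (hQ q hq).2.2
        (by positivity : 0 ≤ (N : ℝ) ^ (1 / 2 : ℝ))
      linarith only [e1, e2, hN0]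
    · have e1 : ((N : ℝ) ^ c₀) ^ 11 ≤ ((N : ℝ) ^ (1 / 2 : ℝ)) ^ c' := by
        rw [← Real.rpow_mul hN0.le]
        exact hpow 11 _ (by push_cast; linarith only [hc3])
      gcongr
  have hx : 2 ≤ (N : ℝ) ^ c₀ := by nlinarith only [hL2, hb, hC]
  have hcv : ((c * v : ℕ) : ℝ) ≤ (N : ℝ) ^ c₀ :=
    (le_mul_of_one_le_right hcv0.le hL2).trans hb'
  have k1 := one_w H.hc H.hv H.cop hx hC.le hN4 hL hG hA11 hAsq (hw1.trans hww) hAw hd1 hd2 hdc hcv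
    hQ' hQc hSN.2.2.1 hU hAU hmd hV4 hV2 hP' hb
  have k2 := one_w H.hc H.hv H.cop hx hC.le hN4 hL hG hA11 hAsq hw1
    ((Nat.mul_le_mul_left A hww).trans hAw) hd1 hd2 hdc hcv
    hQ' hQc hSN.2.2.1 hU hAU hmd hV4 hV2 hP' hb
  have hs : ∑ p ∈ G, ∑ m ∈ (Ico w w').filter (fun m => d ∣ m), ff c u v η r N (p * m) =
      ∑ p ∈ G, ∑ m ∈ (Ico 1 w').filter (fun m => d ∣ m), ff c u v η r N (p * m) -
        ∑ p ∈ G, ∑ m ∈ (Ico 1 w).filter (fun m => d ∣ m), ff c u v η r N (p * m) := by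
    rw [← sum_sub_distrib]
    refine sum_congr rfl fun p _ => ?_
    simp only [sum_filter]
    rw [← sum_Ico_consecutive _ hw1 hww]
    ring
  rw [hfin, hs, sub_div, abs_le]
  rw [abs_le] at k1 k2
  constructor <;> linarith only [k1.1, k1.2, k2.1, k2.2]

end Vale.Agent.P016Z.Pr
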