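import Vale.Agent.P016Z.Pr.Defs

/-!
P016, Type I estimate: the large sieve on cells of small relative width.
-/

open Finset

namespace Vale.Agent.P016Z.Pr.TI

open Vale.Agent.P005

/-- the indicator of `p ∣ n + 1` minus its mean on the reduced classes -/
noncomputable def kr (p n : ℕ) : ℝ :=
  (if p ∣ n + 1 then 1 else 0) - 1 / ((p : ℝ) - 1) * (if p ∣ n then 0 else 1)

lemma kf_eq {p : ℕ} (hp : p.Prime) (n : ℕ) : SQ.kf (-1) p n = kr p n := by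
  unfold SQ.kf kr
  rw [hp.primeFactors, prod_singleton]
  unfold SQ.kp
  have : ((p : ℤ) ∣ (n : ℤ) - (-1)) ↔ p ∣ n + 1 := by
    rw [sub_neg_eq_add]
    exact_mod_cast Iff.rfl
  simp only [this]

lemma ls_cell (G Q : Finset ℕ) (A M K : ℕ) (hA : 0 < A)
    (hG : ∀ p ∈ G, p.Prime ∧ A ≤ p ∧ p ≤ 2 * A) (hQ : ∀ q ∈ Q, q < M) (γ : ℕ → ℝ) {Γ B : ℝ}
    (hγ : ∀ k < K, |γ k| ≤ Γ) (hB0 : 0 ≤ B)
    (hB : (8 * M + 8 * (A : ℝ) ^ 2) * M * ((8 * K + 8 * (A : ℝ) ^ 2) * (K * Γ ^ 2)) ≤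
      (A * B) ^ 2) :
    |∑ p ∈ G, ∑ q ∈ Q, ∑ k ∈ range K, γ k * kr p (q * k)| ≤ B := by
  rcases Nat.eq_zero_or_pos K with rfl | hK
  · simpa using hB0
  rcases Q.eq_empty_or_nonempty with rfl | ⟨q0, hq0⟩
  · simpa using hB0
  have hM : 0 < M := (Nat.zero_le _).trans_lt (hQ q0 hq0)
  have h := SQ.sq_bil_sum_le (-1) G (fun p hp => (hG p hp).1.squarefree) (fun p hp r hr h => by
    have h1 := (Nat.prime_of_mem_primeFactors hr).one_lt
    have h2 : (r : ℤ) ∣ 1 := (Int.dvd_neg).1 h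
    have h3 : r ∣ 1 := by exact_mod_cast h2
    exact h1.ne' (Nat.dvd_one.1 h3)) A (2 * A) M K hA (fun p hp => (hG p hp).2.1)
    (fun p hp => (hG p hp).2.2) hM hK (fun m => if m ∈ Q then 1 else 0) γ
  have hsub : Q ⊆ range M := fun q hq => mem_range.2 (hQ q hq)
  have e1 : ∀ p ∈ G, ∑ q ∈ Q, ∑ k ∈ range K, γ k * kr p (q * k) = ∑ m ∈ range M, ∑ n ∈ range K,
      (if m ∈ Q then (1 : ℝ) else 0) * γ n * SQ.kf (-1) p (m * n) := by
    intro p hp
    rw [← sum_subset hsub fun m _ hm => by simp [hm]]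
    exact sum_congr rfl fun q hq => sum_congr rfl fun k _ => by
      rw [if_pos hq, one_mul, kf_eq (hG p hp).1]
  have a1 : ∑ m ∈ range M, (if m ∈ Q then (1 : ℝ) else 0) ^ 2 ≤ M := by
    calc _ ≤ ∑ _m ∈ range M, (1 : ℝ) := sum_le_sum fun m _ => by split_ifs <;> norm_num
      _ = M := by simp
  have a2 : ∑ n ∈ range K, γ n ^ 2 ≤ K * Γ ^ 2 := by
    calc _ ≤ ∑ _n ∈ range K, Γ ^ 2 := sum_le_sum fun n hn => by
          rw [← sq_abs]
          exact pow_le_pow_left₀ (abs_nonneg _) (hγ n (mem_range.1 hn)) 2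
      _ = _ := by simp
  have hA' : (0 : ℝ) < A := by exact_mod_cast hA
  rw [sum_congr rfl e1]
  refine (abs_sum_le_sum_abs _ _).trans (h.trans ?_)
  rw [one_div, inv_mul_le_iff₀ hA']
  refine Real.sqrt_le_iff.2 ⟨by positivity, le_trans ?_ hB⟩
  have e2 : (2 : ℝ) * ((2 * A : ℕ) : ℝ) ^ 2 = 8 * (A : ℝ) ^ 2 := by push_cast; ring
  rw [e2]
  exact mul_le_mul (mul_le_mul_of_nonneg_left a1 (by positivity))
    (mul_le_mul_of_nonneg_left a2 (by positivity))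
    (mul_nonneg (by positivity) (sum_nonneg fun _ _ => sq_nonneg _)) (by positivity)

/-- the label of the cell of `x` -/
noncomputable def lab (R : ℝ) (x : ℕ) : ℕ := ⌊R * Real.log x⌋₊

lemma lab_spec {R : ℝ} (hR : 0 < R) {x : ℕ} (hx : 1 ≤ x) :
    Real.exp (lab R x / R) ≤ x ∧ (x : ℝ) < Real.exp ((lab R x + 1) / R) := by
  have hx' : (1 : ℝ) ≤ x := by exact_mod_cast hx
  have hl : 0 ≤ R * Real.log x := mul_nonneg hR.le (Real.log_nonneg hx')
  have h1 : (lab R x : ℝ) ≤ R * Real.log x := Nat.floor_le hl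
  have h2 : R * Real.log x < lab R x + 1 := Nat.lt_floor_add_one _
  constructor
  · rw [← Real.le_log_iff_exp_le (by linarith), div_le_iff₀ hR]; linarith
  · rw [← Real.log_lt_iff_lt_exp (by linarith), lt_div_iff₀ hR]; linarith

/-- the common cut of a pair of cells -/
noncomputable def cut (w : ℕ) (R : ℝ) (i j : ℕ) : ℕ := ⌊w * Real.exp ((i - j - 1) / R)⌋₊ - 1

lemma cut_le (w : ℕ) (R : ℝ) (i j : ℕ) : (cut w R i j : ℝ) ≤ w * Real.exp ((i - j - 1) / R) := by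
  refine le_trans ?_ (Nat.floor_le (by positivity))
  exact Nat.cast_le.2 (Nat.sub_le _ 1)

lemma ratio_spec {R : ℝ} (hR : 0 < R) {p q : ℕ} (hp : 1 ≤ p) (hq : 1 ≤ q) :
    Real.exp (((lab R p : ℝ) - lab R q - 1) / R) ≤ p / q ∧
      p / q * (1 - 2 / R) ≤ Real.exp (((lab R p : ℝ) - lab R q - 1) / R) := by
  obtain ⟨h1, h2⟩ := lab_spec hR hp
  obtain ⟨h3, h4⟩ := lab_spec hR hq
  have hq' : (0 : ℝ) < q := by exact_mod_cast hq
  have hp' : (0 : ℝ) < p := by exact_mod_cast hp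
  constructor
  · rw [show ((lab R p : ℝ) - lab R q - 1) / R = lab R p / R - (lab R q + 1) / R by ring,
      Real.exp_sub]
    exact div_le_div₀ hp'.le h1 hq' h4.le
  · rw [show ((lab R p : ℝ) - lab R q - 1) / R = ((lab R p + 1) / R - lab R q / R) + -(2 / R) by
      ring, Real.exp_add, Real.exp_sub]
    have h5 : (p : ℝ) / q ≤ Real.exp ((lab R p + 1) / R) / Real.exp (lab R q / R) :=
      div_le_div₀ (Real.exp_pos _).le h2.le (Real.exp_pos _) h3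
    have h6 : 1 - 2 / R ≤ Real.exp (-(2 / R)) := by linarith [Real.add_one_le_exp (-(2 / R))]
    calc p / q * (1 - 2 / R) ≤ p / q * Real.exp (-(2 / R)) :=
          mul_le_mul_of_nonneg_left h6 (by positivity)
      _ ≤ _ := mul_le_mul_of_nonneg_right h5 (Real.exp_pos _).le

lemma cut_spec {R : ℝ} (hR : 0 < R) (w : ℕ) {p q K : ℕ} (hp : 1 ≤ p) (hq : 1 ≤ q)
    (hK : |(K : ℝ) - p * w / q| ≤ 1) : cut w R (lab R p) (lab R q) ≤ K ∧
      (K : ℝ) - cut w R (lab R p) (lab R q) ≤ 2 / R * (p * w / q) + 3 := by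
  obtain ⟨h1, h2⟩ := ratio_spec hR hp hq
  rw [abs_le] at hK
  set y : ℝ := w * Real.exp (((lab R p : ℝ) - lab R q - 1) / R) with hy
  have hy0 : 0 ≤ y := by positivity
  have a1 : y ≤ p * w / q := by
    rw [show (p : ℝ) * w / q = w * (p / q) by ring]
    exact mul_le_mul_of_nonneg_left h1 (Nat.cast_nonneg w)
  have a2 : p * w / q * (1 - 2 / R) ≤ y := by
    rw [show (p : ℝ) * w / q * (1 - 2 / R) = w * (p / q * (1 - 2 / R)) by ring]
    exact mul_le_mul_of_nonneg_left h2 (Nat.cast_nonneg w)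
  have a3 : (⌊y⌋₊ : ℝ) ≤ y := Nat.floor_le hy0
  have a4 : y < ⌊y⌋₊ + 1 := Nat.lt_floor_add_one y
  have a5 : ⌊y⌋₊ ≤ K + 1 := by
    have : (⌊y⌋₊ : ℝ) ≤ K + 1 := by linarith
    exact_mod_cast this
  have a6 : (⌊y⌋₊ : ℝ) ≤ ((⌊y⌋₊ - 1 : ℕ) : ℝ) + 1 := by
    have : ⌊y⌋₊ ≤ ⌊y⌋₊ - 1 + 1 := by omega
    exact_mod_cast this
  unfold cut
  rw [← hy]
  exact ⟨by omega, by linarith⟩

lemma ls_total (G Q : Finset ℕ) (A w D I : ℕ) {R X U U' Γ B : ℝ} (hA : 0 < A) (hD : 0 < D)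
    (hR : 1 ≤ R) (hU : 1 ≤ U) (hG : ∀ p ∈ G, p.Prime ∧ A ≤ p ∧ p ≤ 2 * A)
    (hQ : ∀ q ∈ Q, U ≤ q ∧ (q : ℝ) ≤ U') (hX : 2 * (A : ℝ) * w ≤ X)
    (hI : ∀ p ∈ G, lab R p < I) (hI' : ∀ q ∈ Q, lab R q < I) (g : ℕ → ℕ → ℝ)
    (hg : ∀ (b k : ℕ), (k : ℝ) ≤ X → |g b k| ≤ Γ) (hB0 : 0 ≤ B)
    (hB : 128 * Γ ^ 2 * X * (2 * X + A ^ 2 * (6 * U' + X / U) + A ^ 4) ≤ (A * B) ^ 2) :
    |∑ p ∈ G, ∑ q ∈ Q, ∑ k ∈ range (cut w R (lab R p) (lab R q)), g (q % D) k * kr p (q * k)| ≤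
      I * (I * D) * B := by
  have hR0 : 0 < R := by linarith
  have hX0 : 0 ≤ X := le_trans (by positivity) hX
  rw [← sum_fiberwise_of_maps_to (g := lab R) (t := range I) fun p hp => mem_range.2 (hI p hp)]
  refine (abs_sum_le_sum_abs _ _).trans ?_
  refine (sum_le_card_nsmul _ _ (I * D * B) fun i _ => ?_).trans
    (by rw [card_range, nsmul_eq_mul]; apply le_of_eq; ring)
  have hm : ∀ q ∈ Q, (lab R q, q % D) ∈ range I ×ˢ range D := fun q hq =>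
    mem_product.2 ⟨mem_range.2 (hI' q hq), mem_range.2 (Nat.mod_lt _ hD)⟩
  simp only [← sum_fiberwise_of_maps_to hm]
  rw [sum_comm]
  refine (abs_sum_le_sum_abs _ _).trans ?_
  refine (sum_le_card_nsmul _ _ B fun jb _ => ?_).trans
    (by rw [card_product, card_range, card_range, nsmul_eq_mul]; push_cast; exact le_rfl)
  obtain ⟨j, b⟩ := jb
  rcases (G.filter fun p => lab R p = i).eq_empty_or_nonempty with h | ⟨p0, hp0⟩
  · rw [h]; simpa using hB0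
  rcases (Q.filter fun q => (lab R q, q % D) = (j, b)).eq_empty_or_nonempty with h | ⟨q0, hq0⟩
  · rw [h]; simpa using hB0
  rw [mem_filter] at hp0 hq0
  obtain ⟨hp0G, rfl⟩ := hp0
  obtain ⟨hq0Q, hq0⟩ := hq0
  obtain ⟨rfl, rfl⟩ := Prod.ext_iff.1 hq0
  have one_le : ∀ q ∈ Q, 1 ≤ q := fun q hq => by
    have : (1 : ℝ) ≤ q := hU.trans (hQ q hq).1
    exact_mod_cast this
  have e : ∑ p ∈ G.filter (fun p => lab R p = lab R p0),
      ∑ q ∈ Q.filter (fun q => (lab R q, q % D) = (lab R q0, q0 % D)),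
        ∑ k ∈ range (cut w R (lab R p) (lab R q)), g (q % D) k * kr p (q * k) =
      ∑ p ∈ G.filter (fun p => lab R p = lab R p0),
      ∑ q ∈ Q.filter (fun q => (lab R q, q % D) = (lab R q0, q0 % D)),
        ∑ k ∈ range (cut w R (lab R p0) (lab R q0)), g (q0 % D) k * kr p (q * k) := by
    refine sum_congr rfl fun p hp => sum_congr rfl fun q hq => ?_
    have h1 := Prod.ext_iff.1 (mem_filter.1 hq).2
    simp only at h1
    rw [(mem_filter.1 hp).2, h1.1, h1.2]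
  rw [e]
  obtain ⟨hp1, hp2, hp3⟩ := hG p0 hp0G
  obtain ⟨l1, -⟩ := lab_spec hR0 hp1.one_le
  obtain ⟨l3, l4⟩ := lab_spec hR0 (one_le q0 hq0Q)
  have hq1 : (1 : ℝ) ≤ q0 := by exact_mod_cast one_le q0 hq0Q
  set E : ℝ := Real.exp ((lab R q0 + 1) / R) with hE
  set K := cut w R (lab R p0) (lab R q0) with hK
  have hE1 : 1 ≤ E := hq1.trans l4.le
  have hM : ((⌊E⌋₊ + 1 : ℕ) : ℝ) ≤ 2 * E := by
    have := Nat.floor_le (show 0 ≤ E by linarith)
    push_cast; linarith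
  have hpw : (p0 : ℝ) * w ≤ X := by
    have : (p0 : ℝ) ≤ 2 * A := by exact_mod_cast hp3
    exact (mul_le_mul_of_nonneg_right this (Nat.cast_nonneg w)).trans hX
  have hEK : E * K ≤ X := by
    calc E * K ≤ E * (w * Real.exp ((lab R p0 - lab R q0 - 1) / R)) :=
          mul_le_mul_of_nonneg_left (cut_le _ _ _ _) (by linarith)
      _ = Real.exp (lab R p0 / R) * w := by
          rw [hE, mul_left_comm, ← Real.exp_add, mul_comm]; congr 2; ring
      _ ≤ p0 * w := mul_le_mul_of_nonneg_right l1 (Nat.cast_nonneg w)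
      _ ≤ X := hpw
  have hK0 : (0 : ℝ) ≤ K := Nat.cast_nonneg K
  have hKU : (K : ℝ) ≤ X / U := by
    rw [le_div_iff₀ (by linarith)]
    have := (hQ q0 hq0Q).1
    nlinarith
  have hEU : E ≤ 3 * U' := by
    have h1 : E = Real.exp (lab R q0 / R) * Real.exp (1 / R) := by
      rw [hE, ← Real.exp_add]; congr 1; ring
    have h2 : Real.exp (1 / R) ≤ 3 := by
      refine (Real.exp_le_exp.2 ((div_le_one hR0).2 hR)).trans ?_
      have := Real.exp_one_lt_d9; linarith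
    have h3 := (hQ q0 hq0Q).2
    rw [h1]
    nlinarith [Real.exp_pos (lab R q0 / R), Real.exp_pos (1 / R)]
  refine ls_cell _ _ A (⌊E⌋₊ + 1) K hA (fun p hp => hG p (mem_filter.1 hp).1) (fun q hq => ?_) _
    (fun k hk => hg _ k ?_) hB0 (le_trans ?_ hB)
  · have h1 := Prod.ext_iff.1 (mem_filter.1 hq).2
    simp only at h1
    have h2 := (lab_spec hR0 (one_le q (mem_filter.1 hq).1)).2
    rw [h1.1] at h2
    exact Nat.lt_succ_of_le (Nat.le_floor h2.le)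
  · have : (k : ℝ) ≤ K := by exact_mod_cast hk.le
    nlinarith
  · have hM0 : (0 : ℝ) ≤ ((⌊E⌋₊ + 1 : ℕ) : ℝ) := Nat.cast_nonneg _
    generalize ((⌊E⌋₊ + 1 : ℕ) : ℝ) = M at hM hM0 ⊢
    have b1 : M * K ≤ 2 * X := by nlinarith
    have b2 : M + K ≤ 6 * U' + X / U := by linarith
    calc (8 * M + 8 * (A : ℝ) ^ 2) * M * ((8 * K + 8 * (A : ℝ) ^ 2) * (K * Γ ^ 2)) =
          64 * Γ ^ 2 * ((M * K) * (M * K + A ^ 2 * (M + K) + A ^ 4)) := by ring
      _ ≤ 64 * Γ ^ 2 * ((2 * X) * (2 * X + A ^ 2 * (6 * U' + X / U) + A ^ 4)) := by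
          gcongr
      _ = _ := by ring

end Vale.Agent.P016Z.Pr.TI
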