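import Vale.Agent.P016Z.Pr.TI.Cell

/-!
P016, Type I estimate: the abstract form.
-/

open Finset

namespace Vale.Agent.P016Z.Pr.TI

lemma card_cong {p a b : ℕ} (hab : a ≤ b) {S : Finset ℕ} (hS : S ⊆ Ico a b)
    (h : ∀ x ∈ S, ∀ y ∈ S, x ≡ y [MOD p]) : (S.card : ℝ) ≤ ((b : ℝ) - a) / p + 1 := by
  have h1 : S.card ≤ (range ((b - a) / p + 1)).card := by
    refine card_le_card_of_injOn (fun k => (k - a) / p) (fun x hx => ?_) fun x hx y hy e => ?_
    · have := mem_Ico.1 (hS hx)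
      exact mem_coe.2 (mem_range.2 (Nat.lt_succ_of_le (Nat.div_le_div_right (by omega))))
    · have hx' := mem_Ico.1 (hS hx)
      have hy' := mem_Ico.1 (hS hy)
      have h2 : x - a ≡ y - a [MOD p] := by
        refine Nat.ModEq.add_right_cancel' a ?_
        rw [Nat.sub_add_cancel hx'.1, Nat.sub_add_cancel hy'.1]
        exact h x hx y hy
      have h3 := Nat.div_add_mod (x - a) p
      have h4 := Nat.div_add_mod (y - a) p
      simp only at e
      rw [e, h2] at h3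
      omega
  rw [card_range] at h1
  have h2 : (((b - a) / p : ℕ) : ℝ) ≤ ((b : ℝ) - a) / p := by
    rw [← Nat.cast_sub hab]
    exact Nat.cast_div_le
  have h3 : (S.card : ℝ) ≤ ((b - a) / p : ℕ) + 1 := by exact_mod_cast h1
  linarith

lemma count_one {p : ℕ} (hp : p.Prime) (q : ℕ) {a b : ℕ} (hab : a ≤ b) :
    ∑ k ∈ Ico a b, (if p ∣ q * k + 1 then (1 : ℝ) else 0) ≤ ((b : ℝ) - a) / p + 1 := by
  rw [sum_boole]
  refine card_cong hab (filter_subset _ _) fun x hx y hy => ?_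
  have h1 := (mem_filter.1 hx).2
  have h2 := (mem_filter.1 hy).2
  have h3 : Nat.Coprime p q := (hp.coprime_iff_not_dvd).2 fun h =>
    hp.one_lt.ne' (Nat.dvd_one.1 ((Nat.dvd_add_right (h.mul_right x)).1 h1))
  refine Nat.ModEq.cancel_left_of_coprime h3 (Nat.ModEq.add_right_cancel' 1 ?_)
  exact ((Nat.modEq_zero_iff_dvd).2 h1).trans ((Nat.modEq_zero_iff_dvd).2 h2).symm

lemma count_two {p q : ℕ} (hp : p.Prime) (hq : q.Prime) (K : ℕ) :
    ∑ k ∈ range K, (if p ∣ q * k then (1 : ℝ) else 0) ≤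
      (if p = q then (K : ℝ) else 0) + ((K : ℝ) / p + 1) := by
  rw [sum_boole]
  have h0 : (0 : ℝ) ≤ (K : ℝ) / p + 1 := by positivity
  split_ifs with h
  · have : ((range K).filter fun k => p ∣ q * k).card ≤ K :=
      (card_filter_le _ _).trans (card_range K).le
    have : ((((range K).filter fun k => p ∣ q * k).card : ℕ) : ℝ) ≤ K := by exact_mod_cast this
    linarith
  · have h1 := card_cong (p := p) (Nat.zero_le K) (S := (range K).filter fun k => p ∣ q * k)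
      (by rw [← range_eq_Ico]; exact filter_subset _ _) fun x hx y hy => by
        have h3 : Nat.Coprime p q := (Nat.coprime_primes hp hq).2 h
        exact ((Nat.modEq_zero_iff_dvd).2 (h3.dvd_of_dvd_mul_left (mem_filter.1 hx).2)).trans
          ((Nat.modEq_zero_iff_dvd).2 (h3.dvd_of_dvd_mul_left (mem_filter.1 hy).2)).symm
    simpa using h1

lemma pair_bound {p q K K0 : ℕ} (hp : p.Prime) (hq : q.Prime) {w R Γ κ E : ℝ} (hw : 0 ≤ w)
    (hΓ : 0 ≤ Γ) (hκ : 0 ≤ κ) (hK : |(K : ℝ) - p * w / q| ≤ 1)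
    (h0 : K0 ≤ K) (h1 : (K : ℝ) - K0 ≤ 2 / R * (p * w / q) + 3) (g : ℕ → ℝ)
    (hg : ∀ k < K, 0 ≤ g k ∧ g k ≤ Γ) (hm : |∑ k ∈ range K, g k - κ * K| ≤ E / q) :
    |∑ k ∈ range K, g k * (if p ∣ q * k + 1 then 1 else 0) - w * κ * (1 / q) -
      ∑ k ∈ range K0, g k * kr p (q * k)| ≤
      6 * Γ * w / R * (1 / q) + 6 * Γ + 2 / p * (Γ * (w + 1) * (if p = q then 1 else 0) +
        (Γ * w + E + κ * w) * (1 / q) + (2 * Γ + κ)) := by
  have hp2 : (2 : ℝ) ≤ p := by exact_mod_cast hp.two_le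
  have hq2 : (2 : ℝ) ≤ q := by exact_mod_cast hq.two_le
  set s : ℝ := 1 / ((p : ℝ) - 1) with hs
  have hs0 : 0 ≤ s := by rw [hs]; apply div_nonneg <;> linarith
  have hs1 : s ≤ 2 / p := by
    rw [hs, div_le_div_iff₀ (by linarith) (by linarith)]; linarith
  have hsp : s * p = 1 + s := by
    have : (p : ℝ) - 1 ≠ 0 := by linarith
    rw [hs]; field_simp; ring
  have e1 : ∑ k ∈ range K, g k * (if p ∣ q * k + 1 then 1 else 0) =
      ∑ k ∈ range K0, g k * kr p (q * k) + ∑ k ∈ Ico K0 K, g k * kr p (q * k) +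
        s * ∑ k ∈ range K, g k - s * ∑ k ∈ range K, g k * (if p ∣ q * k then 1 else 0) := by
    rw [sum_range_add_sum_Ico _ h0, mul_sum, mul_sum, ← sum_add_distrib, ← sum_sub_distrib]
    refine sum_congr rfl fun k _ => ?_
    unfold kr
    rw [← hs]
    by_cases h : p ∣ q * k <;> simp only [h, if_true, if_false] <;> ring
  have hΔ : (0 : ℝ) ≤ (K : ℝ) - K0 := by
    have : (K0 : ℝ) ≤ K := by exact_mod_cast h0
    linarith
  have a1 : |∑ k ∈ Ico K0 K, g k * kr p (q * k)| ≤ 6 * Γ * w / R * (1 / q) + 6 * Γ := by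
    have b1 : ∀ k ∈ Ico K0 K, |g k * kr p (q * k)| ≤
        Γ * ((if p ∣ q * k + 1 then (1 : ℝ) else 0) + 2 / p) := by
      intro k hk
      obtain ⟨c1, c2⟩ := hg k (mem_Ico.1 hk).2
      rw [abs_mul, abs_of_nonneg c1]
      refine mul_le_mul c2 ?_ (abs_nonneg _) hΓ
      unfold kr
      rw [← hs, abs_le]
      split_ifs <;> constructor <;> linarith
    refine (abs_sum_le_sum_abs _ _).trans ((sum_le_sum b1).trans ?_)
    rw [← mul_sum, sum_add_distrib, sum_const, Nat.card_Ico, nsmul_eq_mul, Nat.cast_sub h0]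
    have b2 := count_one hp q h0
    have b3 : ((K : ℝ) - K0) / p ≤ 2 * w / R * (1 / q) + 3 / 2 := by
      rw [div_le_iff₀ (by linarith)]
      have : 2 / R * (p * w / q) = 2 * w / R * (1 / q) * p := by ring
      linarith
    have b4 : ((K : ℝ) - K0) * (2 / p) = 2 * (((K : ℝ) - K0) / p) := by ring
    calc Γ * (∑ k ∈ Ico K0 K, (if p ∣ q * k + 1 then (1 : ℝ) else 0) + ((K : ℝ) - K0) * (2 / p))
        ≤ Γ * (6 * w / R * (1 / q) + 6) := by
          refine mul_le_mul_of_nonneg_left ?_ hΓ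
          have : 6 * w / R * (1 / q) = 3 * (2 * w / R * (1 / q)) := by ring
          linarith
      _ = _ := by ring
  rw [abs_le] at hK hm
  have hKp : (K : ℝ) / p ≤ w * (1 / q) + 1 := by
    rw [div_le_iff₀ (by linarith)]
    have : (p : ℝ) * w / q = w * (1 / q) * p := by ring
    linarith
  have a2 : 0 ≤ ∑ k ∈ range K, g k * (if p ∣ q * k then (1 : ℝ) else 0) :=
    sum_nonneg fun k hk => mul_nonneg (hg k (mem_range.1 hk)).1 (by split_ifs <;> norm_num)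
  have a3 : ∑ k ∈ range K, g k * (if p ∣ q * k then (1 : ℝ) else 0) ≤
      Γ * (w + 1) * (if p = q then 1 else 0) + Γ * w * (1 / q) + 2 * Γ := by
    calc _ ≤ ∑ k ∈ range K, Γ * (if p ∣ q * k then (1 : ℝ) else 0) :=
          sum_le_sum fun k hk => mul_le_mul_of_nonneg_right (hg k (mem_range.1 hk)).2
            (by split_ifs <;> norm_num)
      _ ≤ Γ * ((w + 1) * (if p = q then 1 else 0) + (w * (1 / q) + 2)) := by
          rw [← mul_sum]
          refine mul_le_mul_of_nonneg_left ((count_two hp hq K).trans (add_le_add ?_ ?_)) hΓ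
          · split_ifs with h
            · subst h
              have : (p : ℝ) * w / p = w := by field_simp
              linarith
            · simp
          · linarith
      _ = _ := by ring
  have a4 : |s * ∑ k ∈ range K, g k - w * κ * (1 / q)| ≤
      2 / p * ((E + κ * w) * (1 / q) + κ) := by
    have c1 : s * ∑ k ∈ range K, g k - w * κ * (1 / q) = s * ((∑ k ∈ range K, g k - κ * K) +
        κ * (K - p * w / q) + κ * w * (1 / q)) := by
      linear_combination (κ * w * (1 / q)) * hsp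
    rw [c1, abs_mul, abs_of_nonneg hs0]
    refine mul_le_mul hs1 ?_ (abs_nonneg _) (by positivity)
    have c2 : E / q = E * (1 / q) := by ring
    have c3 : 0 ≤ κ * w * (1 / q) := by positivity
    have c4 := mul_le_mul_of_nonneg_left hK.1 hκ
    have c5 := mul_le_mul_of_nonneg_left hK.2 hκ
    rw [abs_le]
    constructor <;> linarith
  have a5 := mul_le_mul hs1 a3 a2 (by positivity)
  have a6 := mul_nonneg hs0 a2
  rw [e1]
  rw [abs_le] at a1 a4 ⊢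
  have a7 : 0 ≤ 2 / p * (Γ * (w + 1) * (if p = q then 1 else 0) + Γ * w * (1 / q) + 2 * Γ) :=
    a6.trans a5
  constructor <;> linarith

lemma row_bound (Q : Finset ℕ) {A p : ℕ} (w D : ℕ) {R X U U' Γ κ E : ℝ} (hA : 0 < A)
    (hR0 : 0 < R) (hU : 2 ≤ U) (p1 : p.Prime) (p2 : A ≤ p) (p3 : p < 2 * A)
    (hQ : ∀ q ∈ Q, q.Prime ∧ U ≤ q ∧ (q : ℝ) ≤ U') (hQc : (Q.card : ℝ) ≤ U')
    (hth : ∑ q ∈ Q, 1 / (q : ℝ) ≤ 1) (hX : 2 * (A : ℝ) * w ≤ X) (hUX : U' ≤ X)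
    (g : ℕ → ℕ → ℝ) (hg : ∀ (b k : ℕ), (k : ℝ) ≤ X → 0 ≤ g b k ∧ g b k ≤ Γ)
    (hκ : 0 ≤ κ) (hΓ : 0 ≤ Γ) (hE : 0 ≤ E) (K : ℕ → ℕ)
    (hK : ∀ q ∈ Q, |(K q : ℝ) - p * w / q| ≤ 1)
    (hm : ∀ q ∈ Q, ∀ k : ℕ, (q : ℝ) * k ≤ 2 * X → |∑ j ∈ range k, g (q % D) j - κ * k| ≤ E / q) :
    |∑ q ∈ Q, (∑ k ∈ range (K q), g (q % D) k *
      (if p ∣ q * k + 1 then 1 else 0) - w * κ * (1 / q) -
      ∑ k ∈ range (cut w R (lab R p) (lab R q)), g (q % D) k * kr p (q * k))| ≤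
      6 * Γ * w / R + 6 * Γ * U' +
        2 / A * (Γ * (w + 1) + (Γ * w + E + κ * w) + (2 * Γ + κ) * U') := by
  have hA' : (0 : ℝ) < A := by exact_mod_cast hA
  have hw : (0 : ℝ) ≤ w := Nat.cast_nonneg w
  have hpA : (A : ℝ) ≤ p := by exact_mod_cast p2
  have hpw : (p : ℝ) * w ≤ X := by
    have : (p : ℝ) ≤ 2 * A := by exact_mod_cast p3.le
    exact (mul_le_mul_of_nonneg_right this hw).trans hX
  have b1 : ∀ q ∈ Q, |∑ k ∈ range (K q), g (q % D) k * (if p ∣ q * k + 1 then 1 else 0) -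
      w * κ * (1 / q) -
      ∑ k ∈ range (cut w R (lab R p) (lab R q)), g (q % D) k * kr p (q * k)| ≤
      6 * Γ * w / R * (1 / q) + 6 * Γ + 2 / A * (Γ * (w + 1) * (if p = q then 1 else 0) +
        (Γ * w + E + κ * w) * (1 / q) + (2 * Γ + κ)) := by
    intro q hq
    obtain ⟨q1, q2, q3⟩ := hQ q hq
    have hq2 : (2 : ℝ) ≤ q := hU.trans q2
    obtain ⟨c1, c2⟩ := cut_spec hR0 w p1.one_le q1.one_le (hK q hq)
    have c3 : (q : ℝ) * K q ≤ X + q := by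
      have c0 := mul_le_mul_of_nonneg_left (abs_le.1 (hK q hq)).2 (show (0 : ℝ) ≤ q by linarith)
      have c4 : (q : ℝ) * (p * w / q) = p * w := by field_simp
      linarith
    have c5 : (K q : ℝ) ≤ X := by
      have : (0 : ℝ) ≤ K q := Nat.cast_nonneg _
      nlinarith
    refine (pair_bound p1 q1 hw hΓ hκ (hK q hq) c1 c2 (g (q % D)) (fun k hk =>
      hg _ k (le_trans (by exact_mod_cast hk.le) c5)) (hm q hq _ (by linarith))).trans ?_
    have c6 : 2 / (p : ℝ) ≤ 2 / A := div_le_div_of_nonneg_left (by norm_num) hA' hpA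
    refine add_le_add le_rfl (mul_le_mul_of_nonneg_right c6 ?_)
    have : (0 : ℝ) ≤ if p = q then 1 else 0 := by split_ifs <;> norm_num
    positivity
  refine (abs_sum_le_sum_abs _ _).trans ((sum_le_sum b1).trans ?_)
  simp only [sum_add_distrib, ← mul_sum, sum_const, nsmul_eq_mul]
  have d1 : ∑ q ∈ Q, (if p = q then (1 : ℝ) else 0) ≤ 1 := by
    rw [sum_ite_eq]; split_ifs <;> norm_num
  have d2 : 6 * Γ * w / R * ∑ q ∈ Q, 1 / (q : ℝ) ≤ 6 * Γ * w / R :=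
    mul_le_of_le_one_right (by positivity) hth
  have d3 : (Γ * w + E + κ * w) * ∑ q ∈ Q, 1 / (q : ℝ) ≤ Γ * w + E + κ * w :=
    mul_le_of_le_one_right (by positivity) hth
  have d4 : Γ * (w + 1) * ∑ q ∈ Q, (if p = q then (1 : ℝ) else 0) ≤ Γ * (w + 1) :=
    mul_le_of_le_one_right (by positivity) d1
  have d5 := mul_le_mul_of_nonneg_right hQc hΓ
  have d6 := mul_le_mul_of_nonneg_right hQc hκ
  exact add_le_add (by linarith) (mul_le_mul_of_nonneg_left (by linarith) (by positivity))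

theorem core (G Q : Finset ℕ) (A w D I : ℕ) {R X U U' Γ B κ E : ℝ} (hA : 0 < A) (hD : 0 < D)
    (hR : 1 ≤ R) (hU : 2 ≤ U) (hG : ∀ p ∈ G, p.Prime ∧ A ≤ p ∧ p < 2 * A)
    (hQ : ∀ q ∈ Q, q.Prime ∧ U ≤ q ∧ (q : ℝ) ≤ U') (hQc : (Q.card : ℝ) ≤ U')
    (hth : ∑ q ∈ Q, 1 / (q : ℝ) ≤ 1) (hX : 2 * (A : ℝ) * w ≤ X) (hUX : U' ≤ X)
    (hI : ∀ p ∈ G, lab R p < I) (hI' : ∀ q ∈ Q, lab R q < I) (g : ℕ → ℕ → ℝ)
    (hg : ∀ (b k : ℕ), (k : ℝ) ≤ X → 0 ≤ g b k ∧ g b k ≤ Γ) (hB0 : 0 ≤ B)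
    (hB : 128 * Γ ^ 2 * X * (2 * X + A ^ 2 * (6 * U' + X / U) + A ^ 4) ≤ (A * B) ^ 2)
    (hκ : 0 ≤ κ) (hκΓ : κ ≤ Γ) (hE : 0 ≤ E) (K : ℕ → ℕ → ℕ)
    (hK : ∀ p ∈ G, ∀ q ∈ Q, |(K p q : ℝ) - p * w / q| ≤ 1)
    (hm : ∀ q ∈ Q, ∀ k : ℕ, (q : ℝ) * k ≤ 2 * X → |∑ j ∈ range k, g (q % D) j - κ * k| ≤ E / q) :
    |∑ p ∈ G, ∑ q ∈ Q, ∑ k ∈ range (K p q), g (q % D) k * (if p ∣ q * k + 1 then 1 else 0) -
      G.card * (w * κ * ∑ q ∈ Q, 1 / (q : ℝ))| ≤
      I * (I * D) * B + (Γ * (3 * X / R + 6 * A * U' + 6 * w + 2 + 6 * U') + 2 * E) := by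
  have hR0 : 0 < R := by linarith
  have hΓ : 0 ≤ Γ := hκ.trans hκΓ
  have hA' : (0 : ℝ) < A := by exact_mod_cast hA
  have hw : (0 : ℝ) ≤ w := Nat.cast_nonneg w
  have hU' : 0 ≤ U' := le_trans (Nat.cast_nonneg _) hQc
  have h1 := ls_total G Q A w D I hA hD hR (by linarith : 1 ≤ U)
    (fun p hp => ⟨(hG p hp).1, (hG p hp).2.1, (hG p hp).2.2.le⟩) (fun q hq => (hQ q hq).2) hX hI hI'
    g (fun b k hk => by rw [abs_of_nonneg (hg b k hk).1]; exact (hg b k hk).2) hB0 hB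
  have hGc : (G.card : ℝ) ≤ A := by
    have : G.card ≤ (Ico A (2 * A)).card := card_le_card fun p hp => mem_Ico.2 (hG p hp).2
    rw [Nat.card_Ico, show 2 * A - A = A by omega] at this
    exact_mod_cast this
  set Y : ℝ := 6 * Γ * w / R + 6 * Γ * U' +
    2 / A * (Γ * (w + 1) + (Γ * w + E + κ * w) + (2 * Γ + κ) * U') with hY
  have h2 : ∀ p ∈ G, _ ≤ Y := fun p hp => row_bound Q w D hA hR0 hU (hG p hp).1 (hG p hp).2.1
    (hG p hp).2.2 hQ hQc hth hX hUX g hg hκ hΓ hE (K p) (hK p hp) hm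
  have hY0 : 0 ≤ Y := by positivity
  have h3 : |∑ p ∈ G, ∑ q ∈ Q, (∑ k ∈ range (K p q), g (q % D) k *
      (if p ∣ q * k + 1 then 1 else 0) - w * κ * (1 / q) -
      ∑ k ∈ range (cut w R (lab R p) (lab R q)), g (q % D) k * kr p (q * k))| ≤ A * Y := by
    refine (abs_sum_le_sum_abs _ _).trans ((sum_le_card_nsmul _ _ Y h2).trans ?_)
    rw [nsmul_eq_mul]
    exact mul_le_mul_of_nonneg_right hGc hY0
  have h4 : A * Y ≤ Γ * (3 * X / R + 6 * A * U' + 6 * w + 2 + 6 * U') + 2 * E := by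
    have d1 : A * Y = 3 * Γ * (2 * A * w) / R + 6 * Γ * A * U' +
        2 * (Γ * (w + 1) + (Γ * w + E + κ * w) + (2 * Γ + κ) * U') := by
      rw [hY]; field_simp; ring
    have d2 : 3 * Γ * (2 * A * w) / R ≤ 3 * Γ * X / R := by gcongr
    have d3 := mul_le_mul_of_nonneg_right hκΓ hw
    have d4 := mul_le_mul_of_nonneg_right hκΓ hU'
    have d5 : Γ * (3 * X / R) = 3 * Γ * X / R := by ring
    rw [d1]
    linarith
  simp only [sum_sub_distrib, ← mul_sum, sum_const, nsmul_eq_mul] at h3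
  rw [abs_le] at h1 h3 ⊢
  constructor <;> linarith

end Vale.Agent.P016Z.Pr.TI
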