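import Vale.Agent.P016Z.Pr.TI.Core
import Vale.Agent.P016Z.Pr.Defs

/-!
P016, Type I estimate: reduction to the abstract form and the main term.
-/

open Finset

namespace Vale.Agent.P016Z.Pr.TI

open Vale.Agent.P005Z

/-- one mark -/
noncomputable def gam1 (M : ℕ) (L : ℝ) (k : ℕ) : ℝ :=
  if M ∣ k ∧ (k / M).Prime then Real.log ((k / M : ℕ) : ℝ) / L else 0

/-- the inner weight -/
noncomputable def gam (c r N k : ℕ) : ℝ := ∑ t ∈ MT r (ell N), gam1 (c * md t) (Real.log N) k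

/-- the congruence conditions on `n + 1` -/
def chi (c u v d n : ℕ) : Prop := d ∣ n + 1 ∧ (n + 1) % (c * v) = (c * u + 1) % (c * v)

instance (c u v d n : ℕ) : Decidable (chi c u v d n) := by unfold chi; infer_instance

/-- the weight of the abstract estimate -/
noncomputable def gw (c u v d r N b k : ℕ) : ℝ := if chi c u v d (b * k) then gam c r N k else 0

lemma dvd_swap {c e q y : ℕ} (he : 0 < e) (hq : 0 < q) :
    (e ∣ y ∧ c * q ∣ y / e) ↔ (q ∣ y ∧ c * e ∣ y / q) := by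
  have key : ∀ {a b : ℕ}, 0 < a → ((a ∣ y ∧ c * b ∣ y / a) ↔ a * (c * b) ∣ y) := by
    intro a b ha
    constructor
    · rintro ⟨h1, h2⟩
      exact (Nat.dvd_div_iff_mul_dvd h1).1 h2
    · intro h
      have h1 : a ∣ y := (dvd_mul_right _ _).trans h
      exact ⟨h1, (Nat.dvd_div_iff_mul_dvd h1).2 h⟩
  rw [key he, key hq, show e * (c * q) = q * (c * e) by ring]

lemma ff_eq {c u v : ℕ} {η : ℝ} {r N : ℕ} (hmd : ∀ t ∈ MT r (ell N), 0 < md t) (n : ℕ) :
    ff c u v η r N n = ∑ q ∈ Q1s η N,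
      if q ∣ n - 1 ∧ n % (c * v) = (c * u + 1) % (c * v) then gam c r N ((n - 1) / q) else 0 := by
  unfold ff
  by_cases h : n % (c * v) = (c * u + 1) % (c * v)
  · simp only [h, if_true, and_true, gg, sum_filter]
    have h1 : ∀ q, (if q ∣ n - 1 then gam c r N ((n - 1) / q) else 0) =
        ∑ t ∈ MT r (ell N), if q ∣ n - 1 then gam1 (c * md t) (Real.log N) ((n - 1) / q) else 0 := by
      intro q
      split_ifs
      · rfl
      · simp
    simp only [h1]
    rw [sum_comm]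
    refine sum_congr rfl fun t ht => ?_
    by_cases h2 : md t ∣ n - 1
    · rw [if_pos h2]
      refine sum_congr rfl fun q hq => ?_
      have hq0 : 0 < q := (mem_filter.1 hq).2.pos
      have h3 := dvd_swap (c := c) (y := n - 1) (hmd t ht) hq0
      have h4 : (n - 1) / md t / (c * q) = (n - 1) / q / (c * md t) := by
        rw [Nat.div_div_eq_div_mul, Nat.div_div_eq_div_mul]
        congr 1
        ring
      rw [gam1, h4]
      by_cases h5 : c * q ∣ (n - 1) / md t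
      · obtain ⟨h6, h7⟩ := h3.1 ⟨h2, h5⟩
        simp only [h5, h6, h7, if_true, true_and]
      · rw [if_neg fun h6 => h5 h6.1]
        split_ifs with h6 h7
        · exact absurd (h3.2 ⟨h6, h7.1⟩).2 h5
        · rfl
        · rfl
    · rw [if_neg h2]
      refine (sum_eq_zero fun q hq => ?_).symm
      have hq0 : 0 < q := (mem_filter.1 hq).2.pos
      rw [gam1]
      split_ifs with h6 h7
      · exact absurd ((dvd_swap (hmd t ht) hq0).2 ⟨h6, h7.1⟩).1 h2
      · rfl
      · rfl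
  · simp [h]

lemma chi_mod {c u v d q k : ℕ} : chi c u v d (q % (d * (c * v)) * k) ↔ chi c u v d (q * k) := by
  have h : q % (d * (c * v)) * k + 1 ≡ q * k + 1 [MOD d * (c * v)] :=
    ((Nat.mod_modEq _ _).mul_right k).add_right 1
  have h1 := h.of_mul_right (c * v)
  have h2 : (q % (d * (c * v)) * k + 1) % (c * v) = (q * k + 1) % (c * v) := h.of_mul_left d
  unfold chi
  rw [h1.dvd_iff dvd_rfl, h2]

lemma lt_K {p q w k : ℕ} (hq : 0 < q) (hpw : 2 ≤ p * w) :
    k < (p * w + q - 2) / q ↔ q * k + 1 < p * w := by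
  rw [Nat.lt_iff_add_one_le, Nat.le_div_iff_mul_le hq, add_mul, mul_comm k q]
  omega

lemma K_close {p q w : ℕ} (hq : 2 ≤ q) (hpw : 2 ≤ p * w) :
    |(((p * w + q - 2) / q : ℕ) : ℝ) - p * w / q| ≤ 1 := by
  have hq0 : (0 : ℝ) < q := by exact_mod_cast (by omega : 0 < q)
  have h1 := Nat.div_mul_le_self (p * w + q - 2) q
  have h2 := Nat.lt_mul_div_succ (p * w + q - 2) (by omega : 0 < q)
  generalize (p * w + q - 2) / q = K at h1 h2
  have h3 : K * q ≤ p * w + q := by omega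
  have h4 : p * w ≤ K * q + q := by
    rw [mul_add, mul_comm q K] at h2
    omega
  have h5 : (K : ℝ) * q ≤ p * w + q := by exact_mod_cast h3
  have h6 : (p : ℝ) * w ≤ K * q + q := by exact_mod_cast h4
  rw [abs_le]
  constructor
  · rw [le_sub_iff_add_le, ← le_sub_iff_add_le', div_le_iff₀ hq0]
    linarith
  · rw [sub_le_iff_le_add, ← sub_le_iff_le_add', le_div_iff₀ hq0]
    linarith

lemma one_pq {c u v d p q w : ℕ} (hp : p.Prime) (hq : 0 < q) (hw : 1 ≤ w) (hpd : d.Coprime p)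
    (γ : ℕ → ℝ) :
    ∑ m ∈ (Ico 1 w).filter (fun m => d ∣ m),
      (if q ∣ p * m - 1 ∧ (p * m) % (c * v) = (c * u + 1) % (c * v) then γ ((p * m - 1) / q)
        else 0) =
    ∑ k ∈ range ((p * w + q - 2) / q), (if chi c u v d (q * k) then γ k else 0) *
      (if p ∣ q * k + 1 then 1 else 0) := by
  have hpw : 2 ≤ p * w := hp.two_le.trans (Nat.le_mul_of_pos_right _ hw)
  have e1 : ∀ k, (if chi c u v d (q * k) then γ k else 0) * (if p ∣ q * k + 1 then (1 : ℝ) else 0) =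
      if chi c u v d (q * k) ∧ p ∣ q * k + 1 then γ k else 0 := by
    intro k
    by_cases h1 : chi c u v d (q * k) <;> by_cases h2 : p ∣ q * k + 1 <;> simp [h1, h2]
  simp only [e1]
  rw [← sum_filter, ← sum_filter, filter_filter]
  refine sum_nbij' (fun m => (p * m - 1) / q) (fun k => (q * k + 1) / p) ?_ ?_ ?_ ?_ ?_
  · intro m hm
    obtain ⟨h1, h2, h3, h4⟩ := mem_filter.1 hm
    obtain ⟨h5, h6⟩ := mem_Ico.1 h1
    have h7 : q * ((p * m - 1) / q) + 1 = p * m := by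
      rw [Nat.mul_div_cancel' h3]
      have := Nat.mul_pos hp.pos h5
      omega
    refine mem_filter.2 ⟨mem_range.2 ((lt_K hq hpw).2 ?_), ⟨?_, ?_⟩, ?_⟩
    · rw [h7]
      exact Nat.mul_lt_mul_of_pos_left h6 hp.pos
    · rw [h7]
      exact h2.mul_left p
    · rw [h7]
      exact h4
    · rw [h7]
      exact dvd_mul_right _ _
  · intro k hk
    obtain ⟨h1, ⟨h2, h3⟩, h4⟩ := mem_filter.1 hk
    have h5 := (lt_K hq hpw).1 (mem_range.1 h1)
    have h7 : p * ((q * k + 1) / p) = q * k + 1 := Nat.mul_div_cancel' h4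
    refine mem_filter.2 ⟨mem_Ico.2 ⟨?_, ?_⟩, ?_, ?_, ?_⟩
    · exact Nat.div_pos (Nat.le_of_dvd (Nat.succ_pos _) h4) hp.pos
    · exact Nat.lt_of_mul_lt_mul_left (a := p) (by rw [h7]; exact h5)
    · exact hpd.dvd_of_dvd_mul_left (by rw [h7]; exact h2)
    · rw [h7, Nat.add_sub_cancel]
      exact dvd_mul_right _ _
    · rw [h7]
      exact h3
  · intro m hm
    obtain ⟨h1, -, h3, -⟩ := mem_filter.1 hm
    have h7 : q * ((p * m - 1) / q) + 1 = p * m := by
      rw [Nat.mul_div_cancel' h3]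
      have := Nat.mul_pos hp.pos (mem_Ico.1 h1).1
      omega
    simp only [h7]
    exact Nat.mul_div_cancel_left _ hp.pos
  · intro k hk
    obtain ⟨-, -, h4⟩ := mem_filter.1 hk
    simp only [Nat.mul_div_cancel' h4, Nat.add_sub_cancel]
    exact Nat.mul_div_cancel_left _ hq
  · intro m _
    rfl

/-- the reduction -/
lemma sum_eq {c u v : ℕ} {η : ℝ} {r N d w : ℕ} (hmd : ∀ t ∈ MT r (ell N), 0 < md t) (hw : 1 ≤ w)
    (G : Finset ℕ) (hG : ∀ p ∈ G, p.Prime ∧ d.Coprime p) :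
    ∑ p ∈ G, ∑ m ∈ (Ico 1 w).filter (fun m => d ∣ m), ff c u v η r N (p * m) =
      ∑ p ∈ G, ∑ q ∈ Q1s η N, ∑ k ∈ range ((p * w + q - 2) / q),
        gw c u v d r N (q % (d * (c * v))) k * (if p ∣ q * k + 1 then 1 else 0) := by
  refine sum_congr rfl fun p hp => ?_
  simp only [ff_eq hmd, gw, chi_mod]
  rw [sum_comm]
  exact sum_congr rfl fun q hq =>
    one_pq (hG p hp).1 (mem_filter.1 hq).2.pos hw (hG p hp).2 _

lemma exists_class {M v a d : ℕ} (hd : 1 ≤ d) (hM : M.Coprime d) (hv : d.Coprime v)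
    (ha : a.Coprime v) : ∃ a' : ℕ, a'.Coprime (d * v) ∧
      ∀ q, (q % v = a % v ∧ d ∣ M * q + 1) ↔ q % (d * v) = a' % (d * v) := by
  obtain ⟨ρ, -, hρ⟩ := Nat.exists_mul_mod_eq_of_coprime (d - 1) hM (by omega)
  have h1 : M * ρ + 1 ≡ 0 [MOD d] := by
    have h2 : M * ρ + 1 ≡ d - 1 + 1 [MOD d] := Nat.ModEq.add_right 1 hρ
    rw [Nat.sub_add_cancel hd] at h2
    exact h2.trans (Nat.modEq_zero_iff_dvd.2 dvd_rfl)
  have h3 : ∀ q, d ∣ M * q + 1 ↔ q ≡ ρ [MOD d] := by
    intro q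
    rw [← Nat.modEq_zero_iff_dvd]
    exact ⟨fun h => Nat.ModEq.cancel_left_of_coprime hM.symm
      (Nat.ModEq.add_right_cancel' 1 (h.trans h1.symm)),
      fun h => (Nat.ModEq.add_right 1 (Nat.ModEq.mul_left M h)).trans h1⟩
  obtain ⟨a', h4, h5⟩ := Nat.chineseRemainder hv ρ a
  refine ⟨a', Nat.Coprime.mul_right ?_ ?_, fun q => ?_⟩
  · obtain ⟨k, hk⟩ := (h3 a').2 h4
    refine Nat.coprime_of_dvd fun p hp h6 h7 => hp.one_lt.ne' (Nat.dvd_one.1 ?_)
    exact (Nat.dvd_add_right (h6.mul_left M)).1 (hk ▸ h7.mul_right k)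
  · rw [← ZMod.coprime_mod_iff_coprime, h5, ZMod.coprime_mod_iff_coprime]
    exact ha
  · rw [h3]
    constructor
    · intro h
      exact (Nat.modEq_and_modEq_iff_modEq_mul hv).1
        ⟨h.2.trans h4.symm, Nat.ModEq.trans h.1 h5.symm⟩
    · intro h
      have h6 := (Nat.modEq_and_modEq_iff_modEq_mul hv).2 h
      exact ⟨h6.2.trans h5, h6.1.trans h4⟩

lemma chi_class {c u v d e : ℕ} (hc : 0 < c) (hv : 0 < v) (hu : u.Coprime v) (hd : 1 ≤ d)
    (hdc : d.Coprime (c * v)) (hed : e.Coprime d) (hev : e.Coprime v) :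
    ∃ a : ℕ, a.Coprime (d * v) ∧ ∀ s, chi c u v d (c * e * s) ↔ s % (d * v) = a % (d * v) := by
  obtain ⟨a, -, ha⟩ := Nat.exists_mul_mod_eq_of_coprime u hev hv.ne'
  have hav : a.Coprime v := by
    have h1 : (e * a).Coprime v := by
      rw [← ZMod.coprime_mod_iff_coprime, ha, ZMod.coprime_mod_iff_coprime]
      exact hu
    exact Nat.Coprime.coprime_mul_left h1
  obtain ⟨a', h1, h2⟩ := exists_class (M := c * e) hd
    (Nat.Coprime.mul_left hdc.coprime_mul_right_right.symm hed) hdc.coprime_mul_left_right hav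
  refine ⟨a', h1, fun s => ?_⟩
  rw [← h2, chi, and_comm]
  refine and_congr_left fun _ => ?_
  constructor
  · intro h
    have h3 : c * (e * s) ≡ c * u [MOD c * v] := by
      rw [← mul_assoc]
      exact Nat.ModEq.add_right_cancel' 1 h
    have h4 : e * s ≡ u [MOD v] := Nat.ModEq.mul_left_cancel' hc.ne' h3
    exact Nat.ModEq.cancel_left_of_coprime hev.symm (h4.trans (Eq.symm ha))
  · intro h
    have h10 : e * s ≡ u [MOD v] := (Nat.ModEq.mul_left e h).trans ha
    rw [mul_assoc]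
    exact Nat.ModEq.add_right 1 (Nat.ModEq.mul_left' c h10)

lemma sum_gam1 {M : ℕ} (hM : 0 < M) (L : ℝ) (P : ℕ → Prop) [DecidablePred P] {k : ℕ}
    (hk : 1 ≤ k) :
    ∑ j ∈ range k, (if P j then gam1 M L j else 0) =
      (∑ s ∈ (prm 0 ((k - 1) / M + 1)).filter (fun s => P (M * s)), Real.log s) / L := by
  have e1 : ∀ j, (if P j then gam1 M L j else 0) =
      if P j ∧ M ∣ j ∧ (j / M).Prime then Real.log ((j / M : ℕ) : ℝ) / L else 0 := by
    intro j
    rw [gam1]
    by_cases h1 : P j <;> simp [h1]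
  simp only [e1]
  rw [← sum_filter, sum_div, prm, filter_filter]
  refine sum_nbij' (fun j => j / M) (fun s => M * s) ?_ ?_ ?_ ?_ ?_
  · intro j hj
    obtain ⟨h1, h2, h3, h4⟩ := mem_filter.1 hj
    refine mem_filter.2 ⟨mem_Ico.2 ⟨Nat.zero_le _, Nat.lt_succ_of_le
      (Nat.div_le_div_right ?_)⟩, h4, ?_⟩
    · have := mem_range.1 h1
      omega
    · rwa [Nat.mul_div_cancel' h3]
  · intro s hs
    obtain ⟨h1, h2, h3⟩ := mem_filter.1 hs
    refine mem_filter.2 ⟨mem_range.2 ?_, h3, dvd_mul_right _ _, ?_⟩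
    · have h4 := (Nat.mul_le_mul_left M (Nat.lt_succ_iff.1 (mem_Ico.1 h1).2)).trans
        (Nat.mul_div_le _ _)
      omega
    · rwa [Nat.mul_div_cancel_left _ hM]
  · intro j hj
    exact Nat.mul_div_cancel' (mem_filter.1 hj).2.2.1
  · intro s _
    exact Nat.mul_div_cancel_left _ hM
  · intro j _
    rfl

lemma div_close {M k : ℕ} (hM : 0 < M) (hk : 1 ≤ k) :
    |(((k - 1) / M : ℕ) : ℝ) - k / M| ≤ 1 := by
  have hM0 : (0 : ℝ) < M := by exact_mod_cast hM
  have h1 := Nat.div_mul_le_self (k - 1) M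
  have h2 := Nat.lt_mul_div_succ (k - 1) hM
  generalize (k - 1) / M = y at h1 h2
  have h3 : y * M ≤ k + M := by omega
  have h4 : k ≤ y * M + M := by
    rw [mul_add, mul_comm M y] at h2
    omega
  have h5 : (y : ℝ) * M ≤ k + M := by exact_mod_cast h3
  have h6 : (k : ℝ) ≤ y * M + M := by exact_mod_cast h4
  rw [abs_le]
  constructor
  · rw [le_sub_iff_add_le, ← le_sub_iff_add_le', div_le_iff₀ hM0]
    linarith
  · rw [sub_le_iff_le_add, ← sub_le_iff_le_add', le_div_iff₀ hM0]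
    linarith

/-- the main term of one mark -/
lemma main_one {c u v d e q k : ℕ} {L F : ℝ} (hc : 0 < c) (hv : 0 < v) (hu : u.Coprime v)
    (hd : 1 ≤ d) (hdc : d.Coprime (c * v)) (he : 0 < e) (hed : (q * e).Coprime d)
    (hev : (q * e).Coprime v) (hL : 1 ≤ L) (hF : 0 ≤ F)
    (h : ∀ y a : ℕ, y ≤ k → a.Coprime (d * v) →
      |thAP y (d * v) a - (y : ℝ) / (Nat.totient (d * v) : ℝ)| ≤ F) :
    |∑ j ∈ range k, (if chi c u v d (q * j) then gam1 (c * e) L j else 0) -
      1 / (e : ℝ) / (c * L * (d.totient * v.totient)) * k| ≤ F + 1 := by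
  rcases Nat.eq_zero_or_pos k with rfl | hk
  · simp only [range_zero, sum_empty, Nat.cast_zero, mul_zero, sub_zero, abs_zero]
    linarith
  obtain ⟨a, h1, h2⟩ := chi_class hc hv hu hd hdc hed hev
  have hM := Nat.mul_pos hc he
  rw [sum_gam1 hM L (fun j => chi c u v d (q * j)) hk]
  have h3 : ∀ s, q * (c * e * s) = c * (q * e) * s := fun s => by ring
  simp only [h3, h2]
  have h4 := h ((k - 1) / (c * e)) a ((Nat.div_le_self _ _).trans (Nat.sub_le _ _)) h1
  have h5 := div_close hM hk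
  have h6 : (1 : ℝ) ≤ (d * v).totient := by
    exact_mod_cast Nat.totient_pos.2 (Nat.mul_pos hd hv)
  have h7 : (d.totient : ℝ) * v.totient = (d * v).totient := by
    rw [Nat.totient_mul hdc.coprime_mul_left_right, Nat.cast_mul]
  rw [h7]
  unfold thAP at h4
  generalize ∑ p ∈ (prm 0 ((k - 1) / (c * e) + 1)).filter (fun p => p % (d * v) = a % (d * v)),
    Real.log p = θ at h4 ⊢
  generalize (((k - 1) / (c * e) : ℕ) : ℝ) = y at h4 h5
  generalize ((d * v).totient : ℝ) = φ at h4 h6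
  have hc' : (0 : ℝ) < c := by exact_mod_cast hc
  have he' : (0 : ℝ) < e := by exact_mod_cast he
  have h8 : θ / L - 1 / (e : ℝ) / (c * L * φ) * k =
      ((θ - y / φ) + (y - k / ((c * e : ℕ) : ℝ)) / φ) / L := by
    push_cast
    field_simp
    ring
  rw [h8, abs_div, abs_of_pos (by linarith : 0 < L)]
  refine (div_le_self (abs_nonneg _) hL).trans ((abs_add_le _ _).trans (add_le_add h4 ?_))
  rw [abs_div, abs_of_pos (by linarith : 0 < φ)]
  exact (div_le_self (abs_nonneg _) h6).trans h5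

/-- the main term -/
lemma main_all {c u v d r N q k : ℕ} {F : ℝ} (hc : 0 < c) (hv : 0 < v) (hu : u.Coprime v)
    (hd : 1 ≤ d) (hdc : d.Coprime (c * v)) (hqd : q.Coprime d) (hqv : q.Coprime v)
    (hmd : ∀ t ∈ MT r (ell N), 0 < md t ∧ (md t).Coprime d ∧ (md t).Coprime v)
    (hL : 1 ≤ Real.log N) (hF : 0 ≤ F)
    (h : ∀ y a : ℕ, y ≤ k → a.Coprime (d * v) →
      |thAP y (d * v) a - (y : ℝ) / (Nat.totient (d * v) : ℝ)| ≤ F) :
    |∑ j ∈ range k, gw c u v d r N (q % (d * (c * v))) j -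
      VV r (ell N) / (c * Real.log N * (d.totient * v.totient)) * k| ≤
      (MT r (ell N)).card * (F + 1) := by
  have h1 : ∀ j, gw c u v d r N (q % (d * (c * v))) j = ∑ t ∈ MT r (ell N),
      if chi c u v d (q * j) then gam1 (c * md t) (Real.log N) j else 0 := by
    intro j
    simp only [gw, chi_mod]
    split_ifs
    · rfl
    · simp
  simp only [h1]
  rw [sum_comm, VV, sum_div, sum_mul, ← sum_sub_distrib]
  refine (abs_sum_le_sum_abs _ _).trans ((sum_le_card_nsmul _ _ _ fun t ht => ?_).trans_eq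
    (nsmul_eq_mul _ _))
  obtain ⟨h2, h3, h4⟩ := hmd t ht
  exact main_one hc hv hu hd hdc h2 (hqd.mul_left h3) (hqv.mul_left h4) hL hF h

lemma gw_bd {c u v d r N b k : ℕ} (hL : 1 ≤ Real.log N) (hk : k ≤ N ^ 2) :
    0 ≤ gw c u v d r N b k ∧ gw c u v d r N b k ≤ 2 * (MT r (ell N)).card := by
  have h1 : ∀ M, 0 ≤ gam1 M (Real.log N) k ∧ gam1 M (Real.log N) k ≤ 2 := by
    intro M
    rw [gam1]
    split_ifs with h
    · refine ⟨div_nonneg (Real.log_natCast_nonneg _) (by linarith), ?_⟩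
      rw [div_le_iff₀ (by linarith)]
      have h2 : ((k / M : ℕ) : ℝ) ≤ (N : ℝ) ^ 2 := by
        exact_mod_cast (Nat.div_le_self _ _).trans hk
      have h3 := Real.log_le_log (by exact_mod_cast h.2.pos) h2
      rw [Real.log_pow] at h3
      exact_mod_cast h3
    · exact ⟨le_rfl, by norm_num⟩
  rw [gw]
  split_ifs
  · refine ⟨sum_nonneg fun t _ => (h1 _).1, ?_⟩
    refine (sum_le_card_nsmul _ _ 2 fun t _ => (h1 _).2).trans_eq ?_
    rw [nsmul_eq_mul, mul_comm]
  · exact ⟨le_rfl, by positivity⟩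

end Vale.Agent.P016Z.Pr.TI
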